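import Vale.Agent.P211.H626.Fin7

set_option linter.all false

/-! P211 (helper626): certificate of the vertex (9/6, 3/6). Generated by conv7.py/data7.py. -/

namespace Vale.Agent.P211.H626

open Vale.Agent.P211.H237

/-- certificate -/
def v1 : VData where
  d :=
    { A := [⟨90354,0,0,1⟩, ⟨(-33776),0,1,1⟩, ⟨(-87215),0,2,2⟩, ⟨9720,0,2,1⟩, ⟨25397,0,3,2⟩,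
        ⟨(-4974),0,3,1⟩, ⟨996,0,4,1⟩, ⟨265717,1,0,1⟩, ⟨(-284553),1,1,1⟩, ⟨(-104691),1,2,2⟩,
        ⟨133468,1,2,1⟩, ⟨(-16893),1,3,1⟩, ⟨(-150512),2,0,1⟩, ⟨(-173469),2,1,1⟩,
        ⟨68273,2,2,1⟩, ⟨(-6160),3,0,1⟩, ⟨145938,3,1,1⟩, ⟨7314,4,0,1⟩]
      B0 := [⟨1121700,0,0,1⟩, ⟨905623,0,1,1⟩, ⟨(-372534),0,2,2⟩, ⟨422943,0,2,1⟩,
        ⟨(-178754),0,3,2⟩, ⟨386011,0,3,1⟩, ⟨(-123396),0,4,3⟩, ⟨109927,0,4,1⟩,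
        ⟨(-256224),0,5,3⟩, ⟨2508239,1,0,1⟩, ⟨3450010,1,1,1⟩, ⟨1582355,1,2,2⟩,
        ⟨438879,1,2,1⟩, ⟨(-260307),1,3,1⟩, ⟨278527,1,4,3⟩, ⟨828947,2,0,1⟩, ⟨2320671,2,1,1⟩,
        ⟨1320265,2,2,1⟩, ⟨(-3506459),3,0,1⟩, ⟨(-2330558),3,1,1⟩, ⟨1200399,4,0,1⟩]
      B1 := [⟨746473,0,0,2⟩, ⟨135635,0,0,1⟩, ⟨(-179378),0,1,2⟩, ⟨85812,0,1,1⟩, ⟨(-53867),0,2,3⟩,
        ⟨40300,0,2,1⟩, ⟨(-38046),0,3,3⟩, ⟨(-32797),0,3,1⟩, ⟨2592578,1,0,2⟩,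
        ⟨(-603483),1,0,1⟩, ⟨(-719046),1,1,1⟩, ⟨(-209278),1,2,3⟩, ⟨29837,1,2,1⟩,
        ⟨526387,2,0,1⟩, ⟨(-26463),2,1,1⟩, ⟨52369,3,0,1⟩]
      C0 := [⟨850638,0,0,1⟩, ⟨(-2016439),0,1,1⟩, ⟨(-110889),0,2,2⟩, ⟨807617,0,2,1⟩,
        ⟨1081170,0,3,2⟩, ⟨(-478018),0,3,1⟩, ⟨(-123396),0,4,3⟩, ⟨110359,0,4,1⟩,
        ⟨94794,0,5,3⟩, ⟨2010300,1,0,1⟩, ⟨(-5476997),1,1,1⟩, ⟨4406682,1,2,2⟩,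
        ⟨3427652,1,2,1⟩, ⟨(-735275),1,3,1⟩, ⟨(-520526),1,4,3⟩, ⟨1543923,2,0,1⟩,
        ⟨2223413,2,1,1⟩, ⟨(-905255),2,2,1⟩, ⟨(-2423478),3,0,1⟩, ⟨(-238382),3,1,1⟩,
        ⟨739625,4,0,1⟩]
      C1 := [⟨746473,0,0,2⟩, ⟨971904,0,0,1⟩, ⟨(-1078956),0,1,2⟩, ⟨(-602141),0,1,1⟩,
        ⟨(-53867),0,2,3⟩, ⟨178479,0,2,1⟩, ⟨97043,0,3,3⟩, ⟨(-18342),0,3,1⟩,
        ⟨(-2830548),1,0,2⟩, ⟨(-1059141),1,0,1⟩, ⟨1092939,1,1,1⟩, ⟨397075,1,2,3⟩,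
        ⟨(-243163),1,2,1⟩, ⟨474452,2,0,1⟩, ⟨(-294274),2,1,1⟩, ⟨(-32389),3,0,1⟩]
      D := 100000 }
  x1 := 9
  y1 := 3

end Vale.Agent.P211.H626
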