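import Vale.Agent.P211.H626.Fin7

set_option linter.all false

/-! P211 (helper626): certificate of the vertex (18/6, 2/6). Generated by conv7.py/data7.py. -/

namespace Vale.Agent.P211.H626

open Vale.Agent.P211.H237

/-- certificate -/
def v2 : VData where
  d :=
    { A := [⟨14107,0,0,1⟩, ⟨15205,0,1,1⟩, ⟨(-9486),0,2,2⟩, ⟨12987,0,2,1⟩, ⟨(-29493),0,3,2⟩,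
        ⟨(-536),0,3,1⟩, ⟨(-1359),0,4,1⟩, ⟨123751,1,0,1⟩, ⟨(-192173),1,1,1⟩,
        ⟨(-11470),1,2,2⟩, ⟨46614,1,2,1⟩, ⟨4013,1,3,1⟩, ⟨47548,2,0,1⟩, ⟨39018,2,1,1⟩,
        ⟨(-11743),2,2,1⟩, ⟨(-29192),3,0,1⟩, ⟨681,3,1,1⟩, ⟨(-4389),4,0,1⟩]
      B0 := [⟨223139,0,0,1⟩, ⟨151259,0,1,1⟩, ⟨210236,0,2,2⟩, ⟨75810,0,2,1⟩, ⟨110773,0,3,2⟩,
        ⟨90287,0,3,1⟩, ⟨(-162749),0,4,3⟩, ⟨31986,0,4,1⟩, ⟨(-95432),0,5,3⟩, ⟨1782492,1,0,1⟩,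
        ⟨2434217,1,1,1⟩, ⟨(-92588),1,2,2⟩, ⟨867262,1,2,1⟩, ⟨26475,1,3,1⟩, ⟨102442,1,4,3⟩,
        ⟨(-2477068),2,0,1⟩, ⟨(-2116710),2,1,1⟩, ⟨(-341889),2,2,1⟩, ⟨964966,3,0,1⟩,
        ⟨358978,3,1,1⟩, ⟨(-74673),4,0,1⟩]
      B1 := [⟨53287,0,0,2⟩, ⟨171834,0,0,1⟩, ⟨(-29774),0,1,2⟩, ⟨12489,0,1,1⟩, ⟨59222,0,2,3⟩,
        ⟨20943,0,2,1⟩, ⟨108287,0,3,3⟩, ⟨(-6431),0,3,1⟩, ⟨(-298717),1,0,2⟩, ⟨(-93633),1,0,1⟩,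
        ⟨(-457034),1,1,1⟩, ⟨(-194208),1,2,3⟩, ⟨(-81134),1,2,1⟩, ⟨374344,2,0,1⟩,
        ⟨310815,2,1,1⟩, ⟨(-54629),3,0,1⟩]
      C0 := [⟨180818,0,0,1⟩, ⟨(-284082),0,1,1⟩, ⟨238694,0,2,2⟩, ⟨357169,0,2,1⟩, ⟨(-320353),0,3,2⟩,
        ⟨(-231262),0,3,1⟩, ⟨(-162749),0,4,3⟩, ⟨56920,0,4,1⟩, ⟨349665,0,5,3⟩,
        ⟨2312684,1,0,1⟩, ⟨(-2336631),1,1,1⟩, ⟨(-731717),1,2,2⟩, ⟨1418568,1,2,1⟩,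
        ⟨(-337267),1,3,1⟩, ⟨475861,1,4,3⟩, ⟨(-2249951),2,0,1⟩, ⟨717204,2,1,1⟩,
        ⟨49531,2,2,1⟩, ⟨1833568,3,0,1⟩, ⟨(-613701),3,1,1⟩, ⟨(-206741),4,0,1⟩]
      C1 := [⟨53287,0,0,2⟩, ⟨191181,0,0,1⟩, ⟨(-96767),0,1,2⟩, ⟨(-189796),0,1,1⟩, ⟨59222,0,2,3⟩,
        ⟨49543,0,2,1⟩, ⟨59929,0,3,3⟩, ⟨1137,0,3,1⟩, ⟨(-308855),1,0,2⟩, ⟨(-256479),1,0,1⟩,
        ⟨276025,1,1,1⟩, ⟨429599,1,2,3⟩, ⟨(-62988),1,2,1⟩, ⟨123271,2,0,1⟩, ⟨(-37215),2,1,1⟩,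
        ⟨(-30638),3,0,1⟩]
      D := 100000 }
  x1 := 18
  y1 := 2

end Vale.Agent.P211.H626
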