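import Vale.Agent.P211.H129.C7
import Vale.Agent.P211.H56.Leaf7
import Vale.Agent.P211.H626.D.T1C

set_option linter.all false

/-! P211 (helper626): format of the leaves for the chart C of the certificate v1.
Root box: ⟨0, 256, -511, 511, 0, 65536, 0, 1280⟩ -/

namespace Vale.Agent.P211.H626

open Vale.Agent.P211 Vale.Agent.P211.H237

def F1C : Fmt7 := ⟨T1C, H129.idC7, 511, 511, 65536, 17920, 64, 2 ^ 70, 5, 18, 1⟩

theorem hV1C : F1C.Valid := F1C.valid (by decide +kernel)

end Vale.Agent.P211.H626
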