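import Vale.Agent.P211.H626.Good7
import Vale.Agent.P211.H56.Leaf7
import Vale.Agent.P211.H626.D.T2II

set_option linter.all false

/-! P211 (helper626): format of the leaves for the chart II of the certificate v2.
Root box: ⟨0, 510, 127, 255, 0, 65536, 0, 1024⟩ -/

namespace Vale.Agent.P211.H626

open Vale.Agent.P211 Vale.Agent.P211.H237

def F2II : Fmt7 := ⟨T2II, idII, 255, 255, 65536, 1024, 64, 2 ^ 66, 5, 25, 1⟩

theorem hV2II : F2II.Valid := F2II.valid (by decide +kernel)

end Vale.Agent.P211.H626
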