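import Vale.Agent.P211.H626.D.V2
import Vale.Agent.P211.H626.D.T2I
import Vale.Agent.P211.H626.D.T2II
import Vale.Agent.P211.H626.D.T2C

set_option linter.all false

/-! P211 (helper626): the zero tests of the tables of the certificate v2. Generated. -/

namespace Vale.Agent.P211.H626

open Vale.Agent.P211.H237

theorem ok2 : (v2.en chR).ok = true := by decide +kernel

theorem ok2I : okI (v2.en chR) ⟨100, 20, 20, 2 ^ 98⟩ T2I 1 5000 = true := by
  decide +kernel

theorem ok2II : okII (v2.en chB) ⟨100, 20, 24, 2 ^ 98⟩ T2II 1 20000 = true := by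
  decide +kernel

theorem ok2C : H129.okC7 (v2.en chC) ⟨100, 23, 20, 2 ^ 98⟩ T2C 31104 625 = true := by
  decide +kernel

end Vale.Agent.P211.H626
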