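import Vale.Agent.P211.H626.Good7
import Vale.Agent.P211.H56.Leaf7
import Vale.Agent.P211.H626.D.T0I

set_option linter.all false

/-! P211 (helper626): format of the leaves for the chart I of the certificate v0.
Root box: ⟨0, 255, 0, 255, 0, 3211264, -64, 64⟩ -/

namespace Vale.Agent.P211.H626

open Vale.Agent.P211 Vale.Agent.P211.H237

def F0I : Fmt7 := ⟨T0I, idI, 255, 255, 65536, 64, 64, 2 ^ 66, 5, 17, 1⟩

theorem hV0I : F0I.Valid := F0I.valid (by decide +kernel)

end Vale.Agent.P211.H626
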