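import Vale.Agent.P211.H626.D.V0
import Vale.Agent.P211.H626.D.T0I
import Vale.Agent.P211.H626.D.T0II
import Vale.Agent.P211.H626.D.T0C

set_option linter.all false

/-! P211 (helper626): the zero tests of the tables of the certificate v0. Generated. -/

namespace Vale.Agent.P211.H626

open Vale.Agent.P211.H237

theorem ok0 : (v0.en chR).ok = true := by decide +kernel

theorem ok0I : okI (v0.en chR) ⟨100, 20, 20, 2 ^ 98⟩ T0I 1 5000 = true := by
  decide +kernel

theorem ok0II : okII (v0.en chB) ⟨100, 20, 24, 2 ^ 98⟩ T0II 1 20000 = true := by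
  decide +kernel

theorem ok0C : H129.okC7 (v0.en chC) ⟨100, 23, 20, 2 ^ 98⟩ T0C 15552 625 = true := by
  decide +kernel

end Vale.Agent.P211.H626
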