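import Vale.Agent.P211.H626.Fin7

set_option linter.all false

/-! P211 (helper626): certificate of the vertex (6/6, 6/6). Generated by conv7.py/data7.py. -/

namespace Vale.Agent.P211.H626

open Vale.Agent.P211.H237

/-- certificate -/
def v0 : VData where
  d :=
    { A := [⟨62306,0,0,1⟩, ⟨(-27604),0,1,1⟩, ⟨(-58569),0,2,2⟩, ⟨9989,0,2,1⟩, ⟨17941,0,3,2⟩,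
        ⟨(-4265),0,3,1⟩, ⟨676,0,4,1⟩, ⟨269955,1,0,1⟩, ⟨(-278919),1,1,1⟩, ⟨(-53322),1,2,2⟩,
        ⟨101022,1,2,1⟩, ⟨(-8516),1,3,1⟩, ⟨(-218181),2,0,1⟩, ⟨(-56799),2,1,1⟩, ⟨49026,2,2,1⟩,
        ⟨41996,3,0,1⟩, ⟨90619,3,1,1⟩, ⟨338,4,0,1⟩]
      B0 := [⟨811462,0,0,1⟩, ⟨548586,0,1,1⟩, ⟨(-204135),0,2,2⟩, ⟨390149,0,2,1⟩, ⟨(-54608),0,3,2⟩,
        ⟨380322,0,3,1⟩, ⟨(-129796),0,4,3⟩, ⟨106446,0,4,1⟩, ⟨(-191709),0,5,3⟩,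
        ⟨2937306,1,0,1⟩, ⟨3186380,1,1,1⟩, ⟨333493,1,2,2⟩, ⟨507026,1,2,1⟩, ⟨(-201722),1,3,1⟩,
        ⟨281488,1,4,3⟩, ⟨(-36672),2,0,1⟩, ⟨2190576,2,1,1⟩, ⟨1204257,2,2,1⟩,
        ⟨(-2280410),3,0,1⟩, ⟨(-1952149),3,1,1⟩, ⟨798463,4,0,1⟩]
      B1 := [⟨492037,0,0,2⟩, ⟨191847,0,0,1⟩, ⟨(-126923),0,1,2⟩, ⟨31665,0,1,1⟩, ⟨(-16723),0,2,3⟩,
        ⟨12465,0,2,1⟩, ⟨(-20795),0,3,3⟩, ⟨(-29081),0,3,1⟩, ⟨1691114,1,0,2⟩,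
        ⟨(-351158),1,0,1⟩, ⟨(-525235),1,1,1⟩, ⟨140744,1,2,3⟩, ⟨13987,1,2,1⟩, ⟨261092,2,0,1⟩,
        ⟨(-116338),2,1,1⟩, ⟨94195,3,0,1⟩]
      C0 := [⟨624544,0,0,1⟩, ⟨(-1542444),0,1,1⟩, ⟨(-28428),0,2,2⟩, ⟨757809,0,2,1⟩, ⟨720305,0,3,2⟩,
        ⟨(-487940),0,3,1⟩, ⟨(-129796),0,4,3⟩, ⟨116060,0,4,1⟩, ⟨132372,0,5,3⟩,
        ⟨2056084,1,0,1⟩, ⟨(-5450010),1,1,1⟩, ⟨3319568,1,2,2⟩, ⟨3351840,1,2,1⟩,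
        ⟨(-659346),1,3,1⟩, ⟨(-300806),1,4,3⟩, ⟨964327,2,0,1⟩, ⟨2599127,2,1,1⟩,
        ⟨(-1087381),2,2,1⟩, ⟨(-2427178),3,0,1⟩, ⟨(-61614),3,1,1⟩, ⟨806715,4,0,1⟩]
      C1 := [⟨492037,0,0,2⟩, ⟨751809,0,0,1⟩, ⟨(-702495),0,1,2⟩, ⟨(-545309),0,1,1⟩,
        ⟨(-16723),0,2,3⟩, ⟨187078,0,2,1⟩, ⟨38742,0,3,3⟩, ⟨(-23189),0,3,1⟩,
        ⟨(-1854999),1,0,2⟩, ⟨(-818759),1,0,1⟩, ⟨813562,1,1,1⟩, ⟨191967,1,2,3⟩,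
        ⟨(-179266),1,2,1⟩, ⟨333083,2,0,1⟩, ⟨(-196432),2,1,1⟩, ⟨(-14817),3,0,1⟩]
      D := 100000 }
  x1 := 6
  y1 := 6

end Vale.Agent.P211.H626
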